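import Vale.Agent.Lib.P317.Girth

namespace Vale.Agent.Results.P317.GirthDensity

open Set Vale.Agent.Lib.P317

/-- If every subset of the ground set with at most `r - k` elements is independent in `M₂`
(where `r` is the rank of `M₂`; equivalently every circuit of `M₂` has at least `r - k + 1`
elements), `M₁` is a matroid on the same finite ground set and the two matroids have at least
one common base, then the common bases are at least a `(1 + r (n - r)) ^ (- k ^ 2)` fraction of
all bases of `M₁`.  For `k = 1` this is the paving case. -/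
theorem result {α : Type*} [Finite α] (M₁ M₂ : Matroid α) (hE : M₁.E = M₂.E) (r k : ℕ)
    (hr : M₂.eRank = r)
    (hgirth : ∀ I ⊆ M₂.E, I.encard + k ≤ M₂.eRank → M₂.Indep I)
    (hne : ∃ B, M₁.IsBase B ∧ M₂.IsBase B) :
    {B | M₁.IsBase B}.ncard ≤
      (1 + r * (M₂.E.ncard - r)) ^ (k ^ 2) * {B | M₁.IsBase B ∧ M₂.IsBase B}.ncard := by
  obtain ⟨Y, hY1, hY2⟩ := hne
  refine le_trans (Set.ncard_le_ncard ?_ (Set.toFinite _))
    (ncard_level_le hE hr hgirth hY1 hY2 (k ^ 2))
  intro S hS
  obtain ⟨hSE, hSn, -⟩ := base_facts hE hr hY1 hY2 hS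
  exact ⟨hS, pot_le hr hgirth hSE hSn⟩

end Vale.Agent.Results.P317.GirthDensity
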