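import Vale.Agent.Lib.P317.Level

namespace Vale.Agent.Results.P317.LevelStability

open Set Vale.Agent.Lib.P317

/-- Let `M₁` and `M₂` be matroids on the same finite ground set, `r` the rank of `M₂`, and let
`M₂'` be a matroid such that every independent set of `M₂'` with at most `r - k` elements is
independent in `M₂`.  If `M₁` and `M₂` have at least one common base, then the number of common
bases of `M₁` and `M₂'` is at most `(1 + r (n - r)) ^ (k ^ 2)` times the number of common bases
of `M₁` and `M₂`.  (With `M₂' = M₁` the left-hand side is the number of bases of `M₁`.) -/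
theorem result {α : Type*} [Finite α] (M₁ M₂ M₂' : Matroid α) (hE : M₁.E = M₂.E) (r k : ℕ)
    (hr : M₂.eRank = r)
    (hlow : ∀ I, M₂'.Indep I → I.encard + k ≤ M₂.eRank → M₂.Indep I)
    (hne : ∃ B, M₁.IsBase B ∧ M₂.IsBase B) :
    {B | M₁.IsBase B ∧ M₂'.IsBase B}.ncard ≤
      (1 + r * (M₂.E.ncard - r)) ^ (k ^ 2) * {B | M₁.IsBase B ∧ M₂.IsBase B}.ncard := by
  obtain ⟨Y, hY1, hY2⟩ := hne
  refine le_trans (Set.ncard_le_ncard ?_ (Set.toFinite _))
    (Level.ncard_level_le (k := k) hE hr hY1 hY2 (k ^ 2))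
  rintro S ⟨hS, hS'⟩
  obtain ⟨hSE, hSn, -⟩ := base_facts hE hr hY1 hY2 hS
  have hloc : ∀ I ⊆ S, I.encard + k ≤ M₂.eRank → M₂.Indep I :=
    fun I hI hc => hlow I (hS'.indep.subset hI) hc
  exact ⟨hS, hloc, Weak.pot_le hr hloc hSE hSn⟩

end Vale.Agent.Results.P317.LevelStability
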