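import Vale.Agent.Lib.P317.Exchange

namespace Vale.Agent.Results.P317.RelaxationBarrier

open Set Vale.Agent.Lib.P317

/-- Guard lemma: a base `C` of `M₁` that is a circuit-hyperplane of `M₂` (a circuit that is a
flat and has as many elements as the rank of `M₂`) is one exchange away from a common base, as
soon as `M₁` has another base. -/
theorem guard {α : Type*} [Finite α] (M₁ M₂ : Matroid α) (hE : M₁.E = M₂.E) {C B₀ : Set α}
    (hC₁ : M₁.IsBase C) (hB₀ : M₁.IsBase B₀) (hne : B₀ ≠ C)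
    (hC : M₂.IsCircuit C ∧ M₂.IsFlat C ∧ C.encard = M₂.eRank) :
    ∃ e ∈ C, ∃ f ∈ M₂.E \ C, M₁.IsBase (insert f (C \ {e})) ∧ M₂.IsBase (insert f (C \ {e})) := by
  obtain ⟨hcirc, hflat, hcard⟩ := hC
  have hnot : ¬ C ⊆ B₀ := fun h => hne (hC₁.eq_of_subset_isBase hB₀ h).symm
  obtain ⟨e, heC, heB⟩ := Set.not_subset.mp hnot
  obtain ⟨f, hf, hbase⟩ := hC₁.exchange hB₀ ⟨heC, heB⟩
  have hfE : f ∈ M₂.E := hE ▸ hB₀.subset_ground hf.1
  refine ⟨e, heC, f, ⟨hfE, hf.2⟩, hbase, ?_⟩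
  have hI : M₂.Indep (C \ {e}) := hcirc.sdiff_singleton_indep heC
  have hcl : M₂.closure (C \ {e}) = C := by
    rw [hcirc.closure_sdiff_singleton_eq e, hflat.closure]
  have hInd : M₂.Indep (insert f (C \ {e})) := by
    rw [hI.insert_indep_iff, hcl]
    exact Or.inl ⟨hfE, hf.2⟩
  have hfn : f ∉ C \ {e} := fun h => hf.2 h.1
  refine isBase_of_indep_of_encard hInd ?_
  rw [Set.encard_insert_of_notMem hfn, Set.encard_sdiff_singleton_add_one heC, hcard]

/-- Relaxing circuit-hyperplanes changes the number of common bases by at most a polynomial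
factor. Here `M₂'` is any matroid each of whose bases is a base of `M₂` or a circuit-hyperplane
of `M₂` (a circuit of `M₂` that is a flat and has as many elements as the rank of `M₂`), for
instance the relaxation of `M₂` at any family of its circuit-hyperplanes; `r` is the rank of
`M₂`, and `M₁` has at least two bases. -/
theorem result {α : Type*} [Finite α] (M₁ M₂ M₂' : Matroid α) (hE : M₁.E = M₂.E) (r : ℕ)
    (hr : M₂.eRank = r)
    (h2 : ∃ B B', M₁.IsBase B ∧ M₁.IsBase B' ∧ B ≠ B')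
    (hrel : ∀ B, M₂'.IsBase B →
      M₂.IsBase B ∨ (M₂.IsCircuit B ∧ M₂.IsFlat B ∧ B.encard = M₂.eRank)) :
    {B | M₁.IsBase B ∧ M₂'.IsBase B}.ncard ≤
      (1 + r * (M₂.E.ncard - r)) * {B | M₁.IsBase B ∧ M₂.IsBase B}.ncard := by
  refine ncard_le_of_exchange_cover M₂.E r _ _
    (fun T hT => ⟨hT.2.subset_ground, ncard_of_isBase hT.2 r hr⟩) ?_
  intro B hB
  rcases hrel B hB.2 with h | h
  · exact Or.inl ⟨hB.1, h⟩
  right
  obtain ⟨B₁, B₂, hB₁, hB₂, hne⟩ := h2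
  have hex : ∃ B₀, M₁.IsBase B₀ ∧ B₀ ≠ B := by
    by_cases h1 : B₁ = B
    · exact ⟨B₂, hB₂, fun h2 => hne (h1.trans h2.symm)⟩
    · exact ⟨B₁, hB₁, h1⟩
  obtain ⟨B₀, hB₀, hne₀⟩ := hex
  obtain ⟨e, he, f, hf, hmem⟩ := guard M₁ M₂ hE hB.1 hB₀ hne₀ h
  refine ⟨insert f (B \ {e}), hmem, e, ⟨hE ▸ hB.1.subset_ground he, ?_⟩, f, Set.mem_insert _ _,
    insert_sdiff_insert_sdiff he hf.2⟩
  intro h3
  rcases h3 with h3 | h3
  · exact hf.2 (h3 ▸ he)
  · exact h3.2 rfl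

end Vale.Agent.Results.P317.RelaxationBarrier
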