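import Vale.Agent.Lib.P317.Level
import Vale.Agent.Lib.P317.Exchange

/-!
# P317: level stability and the relaxation barrier, collected

One theorem with two parts, each of which is the statement of another hand-in of this folder
(`LevelStability` and `RelaxationBarrier`), word for word.  Nothing new is proved here.
-/

namespace Vale.Agent.Results.P317.StabilityAndBarrier

open Set Vale.Agent.Lib.P317

/-- Guard lemma: a base `C` of `M₁` that is a circuit-hyperplane of `M₂` (a circuit that is a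
flat and has as many elements as the rank of `M₂`) is one exchange away from a common base, as
soon as `M₁` has another base. -/
theorem guard {α : Type*} [Finite α] (M₁ M₂ : Matroid α) (hE : M₁.E = M₂.E) {C B₀ : Set α}
    (hC₁ : M₁.IsBase C) (hB₀ : M₁.IsBase B₀) (hne : B₀ ≠ C)
    (hC : M₂.IsCircuit C ∧ M₂.IsFlat C ∧ C.encard = M₂.eRank) :
    ∃ e ∈ C, ∃ f ∈ M₂.E \ C, M₁.IsBase (insert f (C \ {e})) ∧ M₂.IsBase (insert f (C \ {e})) := by
  obtain ⟨hcirc, hflat, hcard⟩ := hC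
  have hnot : ¬ C ⊆ B₀ := fun h => hne (hC₁.eq_of_subset_isBase hB₀ h).symm
  obtain ⟨e, heC, heB⟩ := Set.not_subset.mp hnot
  obtain ⟨f, hf, hbase⟩ := hC₁.exchange hB₀ ⟨heC, heB⟩
  have hfE : f ∈ M₂.E := hE ▸ hB₀.subset_ground hf.1
  refine ⟨e, heC, f, ⟨hfE, hf.2⟩, hbase, ?_⟩
  have hI : M₂.Indep (C \ {e}) := hcirc.sdiff_singleton_indep heC
  have hcl : M₂.closure (C \ {e}) = C := by
    rw [hcirc.closure_sdiff_singleton_eq e, hflat.closure]
  have hInd : M₂.Indep (insert f (C \ {e})) := by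
    rw [hI.insert_indep_iff, hcl]
    exact Or.inl ⟨hfE, hf.2⟩
  have hfn : f ∉ C \ {e} := fun h => hf.2 h.1
  refine isBase_of_indep_of_encard hInd ?_
  rw [Set.encard_insert_of_notMem hfn, Set.encard_sdiff_singleton_add_one heC, hcard]

/-- Level stability (the statement of the hand-in `LevelStability`). -/
theorem level {α : Type*} [Finite α] (M₁ M₂ M₂' : Matroid α) (hE : M₁.E = M₂.E) (r k : ℕ)
    (hr : M₂.eRank = r)
    (hlow : ∀ I, M₂'.Indep I → I.encard + k ≤ M₂.eRank → M₂.Indep I)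
    (hne : ∃ B, M₁.IsBase B ∧ M₂.IsBase B) :
    {B | M₁.IsBase B ∧ M₂'.IsBase B}.ncard ≤
      (1 + r * (M₂.E.ncard - r)) ^ (k ^ 2) * {B | M₁.IsBase B ∧ M₂.IsBase B}.ncard := by
  obtain ⟨Y, hY1, hY2⟩ := hne
  refine le_trans (Set.ncard_le_ncard ?_ (Set.toFinite _))
    (Level.ncard_level_le (k := k) hE hr hY1 hY2 (k ^ 2))
  rintro S ⟨hS, hS'⟩
  obtain ⟨hSE, hSn, -⟩ := base_facts hE hr hY1 hY2 hS
  have hloc : ∀ I ⊆ S, I.encard + k ≤ M₂.eRank → M₂.Indep I :=
    fun I hI hc => hlow I (hS'.indep.subset hI) hc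
  exact ⟨hS, hloc, Weak.pot_le hr hloc hSE hSn⟩

/-- The relaxation barrier (the statement of the hand-in `RelaxationBarrier`). -/
theorem barrier {α : Type*} [Finite α] (M₁ M₂ M₂' : Matroid α) (hE : M₁.E = M₂.E) (r : ℕ)
    (hr : M₂.eRank = r)
    (h2 : ∃ B B', M₁.IsBase B ∧ M₁.IsBase B' ∧ B ≠ B')
    (hrel : ∀ B, M₂'.IsBase B →
      M₂.IsBase B ∨ (M₂.IsCircuit B ∧ M₂.IsFlat B ∧ B.encard = M₂.eRank)) :
    {B | M₁.IsBase B ∧ M₂'.IsBase B}.ncard ≤
      (1 + r * (M₂.E.ncard - r)) * {B | M₁.IsBase B ∧ M₂.IsBase B}.ncard := by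
  refine ncard_le_of_exchange_cover M₂.E r _ _
    (fun T hT => ⟨hT.2.subset_ground, ncard_of_isBase hT.2 r hr⟩) ?_
  intro B hB
  rcases hrel B hB.2 with h | h
  · exact Or.inl ⟨hB.1, h⟩
  right
  obtain ⟨B₁, B₂, hB₁, hB₂, hne⟩ := h2
  have hex : ∃ B₀, M₁.IsBase B₀ ∧ B₀ ≠ B := by
    by_cases h1 : B₁ = B
    · exact ⟨B₂, hB₂, fun h2 => hne (h1.trans h2.symm)⟩
    · exact ⟨B₁, hB₁, h1⟩
  obtain ⟨B₀, hB₀, hne₀⟩ := hex
  obtain ⟨e, he, f, hf, hmem⟩ := guard M₁ M₂ hE hB.1 hB₀ hne₀ h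
  refine ⟨insert f (B \ {e}), hmem, e, ⟨hE ▸ hB.1.subset_ground he, ?_⟩, f, Set.mem_insert _ _,
    insert_sdiff_insert_sdiff he hf.2⟩
  intro h3
  rcases h3 with h3 | h3
  · exact hf.2 (h3 ▸ he)
  · exact h3.2 rfl

universe u

/-- Two results on the number of common bases of two matroids `M₁`, `M₂` on the same finite
ground set, `r` the rank of `M₂`, `n` the size of the ground set.

1. Level stability: if `M₂'` is a matroid such that every independent set of `M₂'` with at most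
`r - k` elements is independent in `M₂`, and `M₁`, `M₂` have a common base, then the number of
common bases of `M₁` and `M₂'` is at most `(1 + r (n - r)) ^ (k ^ 2)` times the number of common
bases of `M₁` and `M₂`.

2. Relaxation barrier: if `M₁` has at least two bases and every base of `M₂'` is a base of `M₂`
or a circuit-hyperplane of `M₂` (a circuit of `M₂` that is a flat and has `r` elements), then
the number of common bases of `M₁` and `M₂'` is at most `(1 + r (n - r))` times the number of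
common bases of `M₁` and `M₂`. -/
theorem result :
    (∀ (α : Type u) [Finite α] (M₁ M₂ M₂' : Matroid α), M₁.E = M₂.E → ∀ r k : ℕ,
      M₂.eRank = r →
      (∀ I, M₂'.Indep I → I.encard + k ≤ M₂.eRank → M₂.Indep I) →
      (∃ B, M₁.IsBase B ∧ M₂.IsBase B) →
      {B | M₁.IsBase B ∧ M₂'.IsBase B}.ncard ≤
        (1 + r * (M₂.E.ncard - r)) ^ (k ^ 2) * {B | M₁.IsBase B ∧ M₂.IsBase B}.ncard) ∧
    (∀ (α : Type u) [Finite α] (M₁ M₂ M₂' : Matroid α), M₁.E = M₂.E → ∀ r : ℕ,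
      M₂.eRank = r →
      (∃ B B', M₁.IsBase B ∧ M₁.IsBase B' ∧ B ≠ B') →
      (∀ B, M₂'.IsBase B →
        M₂.IsBase B ∨ (M₂.IsCircuit B ∧ M₂.IsFlat B ∧ B.encard = M₂.eRank)) →
      {B | M₁.IsBase B ∧ M₂'.IsBase B}.ncard ≤
        (1 + r * (M₂.E.ncard - r)) * {B | M₁.IsBase B ∧ M₂.IsBase B}.ncard) :=
  ⟨fun _ _ M₁ M₂ M₂' hE r k hr hlow hne => level M₁ M₂ M₂' hE r k hr hlow hne,
    fun _ _ M₁ M₂ M₂' hE r hr h2 hrel => barrier M₁ M₂ M₂' hE r hr h2 hrel⟩

end Vale.Agent.Results.P317.StabilityAndBarrier
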